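import Mathlib
import Vale.Agent.P047.Final
import Vale.Agent.P047.Deg4

namespace Vale.Agent.Results.P047.DegreeFour

open Finset Vale.Agent.P047

/-- **The exact value `M(4) = 7/4`, and the general constant-factor bound.**
The cube `{-1,1}^n` is `Fin n → Bool` with `true ↦ 1`, `false ↦ -1`; `f` is Boolean if it is
`±1`-valued, and `deg f ≤ d` means that all Fourier coefficients of level `> d` vanish.

* (1) every Boolean `f` (any number of variables) with `deg f ≤ 4` has
  `∑ i, \hat f({i}) ≤ 7/4` (in particular `≤ 2 = √4`, the Gopalan-Servedio bound for degree 4);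
* (2) the bound `7/4` is attained by a Boolean function of degree `≤ 4` on seven variables;
* (3) for every `d ≥ 2`, `deg f ≤ d` implies `∑ i, \hat f({i}) ≤ (49/50) d`, and `≤ (47/50) d` if
  `d ≥ 100`. -/
theorem result :
    (∀ (n : ℕ) (f : (Fin n → Bool) → ℝ), (∀ x, f x = 1 ∨ f x = -1) →
      (∀ S : Finset (Fin n), 4 < S.card →
        (∑ x : Fin n → Bool, f x * ∏ i ∈ S, (if x i then (1 : ℝ) else -1)) / 2 ^ n = 0) →
      ∑ i : Fin n, (∑ x : Fin n → Bool, f x * (if x i then (1 : ℝ) else -1)) / 2 ^ n ≤ 7 / 4) ∧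
    (∃ f : (Fin 7 → Bool) → ℝ, (∀ x, f x = 1 ∨ f x = -1) ∧
      (∀ S : Finset (Fin 7), 4 < S.card →
        (∑ x : Fin 7 → Bool, f x * ∏ i ∈ S, (if x i then (1 : ℝ) else -1)) / 2 ^ 7 = 0) ∧
      ∑ i : Fin 7, (∑ x : Fin 7 → Bool, f x * (if x i then (1 : ℝ) else -1)) / 2 ^ 7 = 7 / 4) ∧
    (∀ (n d : ℕ) (f : (Fin n → Bool) → ℝ), (∀ x, f x = 1 ∨ f x = -1) →
      (∀ S : Finset (Fin n), d < S.card →
        (∑ x : Fin n → Bool, f x * ∏ i ∈ S, (if x i then (1 : ℝ) else -1)) / 2 ^ n = 0) →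
      (2 ≤ d → ∑ i : Fin n, (∑ x : Fin n → Bool, f x * (if x i then (1 : ℝ) else -1)) / 2 ^ n
          ≤ 49 / 50 * d) ∧
      (100 ≤ d → ∑ i : Fin n, (∑ x : Fin n → Bool, f x * (if x i then (1 : ℝ) else -1)) / 2 ^ n
          ≤ 47 / 50 * d)) := by
  have hsum : ∀ (n : ℕ) (f : (Fin n → Bool) → ℝ),
      ∑ i : Fin n, (∑ x : Fin n → Bool, f x * (if x i then (1 : ℝ) else -1)) / 2 ^ n
      = ∑ i, fhat f {i} := by
    intro n f
    apply Finset.sum_congr rfl
    intro i _
    simp [fhat, sg]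
  refine ⟨?_, ?_, ?_⟩
  · intro n f hf hdeg
    rw [hsum]
    exact lev_le_of_deg_four n f hf (fun S hS => hdeg S hS)
  · refine ⟨fun x => (f7Z x : ℝ), ?_, ?_, ?_⟩
    · intro x
      rcases f7Z_bool x with h | h <;> simp [h]
    · intro S hS
      have h := f7Z_deg S hS
      have h2 : ∑ x : Fin 7 → Bool, (f7Z x : ℝ) * ∏ i ∈ S, (if x i then (1 : ℝ) else -1)
          = ((∑ x : Fin 7 → Bool, f7Z x * ∏ i ∈ S, sgZ (x i) : ℤ) : ℝ) := by
        push_cast
        apply Finset.sum_congr rfl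
        intro x _
        congr 1
        apply Finset.prod_congr rfl
        intro i _
        cases x i <;> simp [sgZ]
      rw [h2, h]
      simp
    · have h := f7Z_lev
      have h3 : ∀ i : Fin 7, ∑ x : Fin 7 → Bool, (f7Z x : ℝ) * (if x i then (1 : ℝ) else -1)
          = ((∑ x : Fin 7 → Bool, f7Z x * sgZ (x i) : ℤ) : ℝ) := by
        intro i
        rw [Int.cast_sum]
        apply Finset.sum_congr rfl
        intro x _
        rw [Int.cast_mul]
        cases x i <;> simp [sgZ]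
      simp_rw [h3]
      rw [← Finset.sum_div, ← Int.cast_sum, h]
      norm_num
  · intro n d f hf hdeg
    have hdeg' : ∀ S : Finset (Fin n), d < S.card → fhat f S = 0 := fun S hS => hdeg S hS
    rw [hsum]
    exact ⟨fun h => main_general f hf d h hdeg', fun h => main_large f hf d h hdeg'⟩

end Vale.Agent.Results.P047.DegreeFour
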