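import Mathlib
import Vale.Agent.P047.Nine
import Vale.Agent.Results.P047.DegreeFour

namespace Vale.Agent.Results.P047.BothBounds

open Finset Vale.Agent.P047

/-- The cube `{-1,1}^n` is `Fin n → Bool` with `true ↦ 1`, `false ↦ -1`; `f` is Boolean if it is
`±1`-valued; `deg f ≤ d` means that all Fourier coefficients of level `> d` vanish;
`B_d = E|X_1 + ... + X_d|`.

* (1) for every `k` there is a Boolean `f` on `7 + 2k` variables with `deg f ≤ 4 + 2k` and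
  level-one sum at least `B_{4+2k} + (1/4) binom(2k,k) / 4^k`;
* (2) for every `k` there is a Boolean `f` on `9 + 2k` variables with `deg f ≤ 5 + 2k` and
  level-one sum at least `B_{5+2k} + (1/16) binom(2k,k) / 4^k`;
* (3) hence for every `d ≥ 4` some Boolean `f` with `deg f ≤ d` has level-one sum `> B_d`;
* (4) a Boolean `f` on nine variables with `deg f ≤ 5` and level-one sum `31/16`;
* (5) `deg f ≤ 4` implies level-one sum `≤ 7/4`; (6) attained on seven variables;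
* (7) the general upper bounds `(49/50) d` (`d ≥ 2`) and `(47/50) d` (`d ≥ 100`). -/
theorem result :
    (∀ k : ℕ, ∃ f : (Fin (7 + 2 * k) → Bool) → ℝ, (∀ x, f x = 1 ∨ f x = -1) ∧
      (∀ S : Finset (Fin (7 + 2 * k)), 4 + 2 * k < S.card →
        (∑ x : Fin (7 + 2 * k) → Bool, f x * ∏ i ∈ S, (if x i then (1 : ℝ) else -1))
          / 2 ^ (7 + 2 * k) = 0) ∧
      (∑ y : Fin (4 + 2 * k) → Bool, |∑ i, (if y i then (1 : ℝ) else -1)|) / 2 ^ (4 + 2 * k)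
          + 1 / 4 * ((Nat.choose (2 * k) k : ℝ) / 4 ^ k)
        ≤ ∑ i : Fin (7 + 2 * k),
          (∑ x : Fin (7 + 2 * k) → Bool, f x * (if x i then (1 : ℝ) else -1))
            / 2 ^ (7 + 2 * k)) ∧
    (∀ k : ℕ, ∃ f : (Fin (9 + 2 * k) → Bool) → ℝ, (∀ x, f x = 1 ∨ f x = -1) ∧
      (∀ S : Finset (Fin (9 + 2 * k)), 5 + 2 * k < S.card →
        (∑ x : Fin (9 + 2 * k) → Bool, f x * ∏ i ∈ S, (if x i then (1 : ℝ) else -1))
          / 2 ^ (9 + 2 * k) = 0) ∧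
      (∑ y : Fin (5 + 2 * k) → Bool, |∑ i, (if y i then (1 : ℝ) else -1)|) / 2 ^ (5 + 2 * k)
          + 1 / 16 * ((Nat.choose (2 * k) k : ℝ) / 4 ^ k)
        ≤ ∑ i : Fin (9 + 2 * k),
          (∑ x : Fin (9 + 2 * k) → Bool, f x * (if x i then (1 : ℝ) else -1))
            / 2 ^ (9 + 2 * k)) ∧
    (∀ d : ℕ, 4 ≤ d → ∃ (n : ℕ) (f : (Fin n → Bool) → ℝ), (∀ x, f x = 1 ∨ f x = -1) ∧
      (∀ S : Finset (Fin n), d < S.card →
        (∑ x : Fin n → Bool, f x * ∏ i ∈ S, (if x i then (1 : ℝ) else -1)) / 2 ^ n = 0) ∧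
      (∑ y : Fin d → Bool, |∑ i, (if y i then (1 : ℝ) else -1)|) / 2 ^ d
        < ∑ i : Fin n, (∑ x : Fin n → Bool, f x * (if x i then (1 : ℝ) else -1)) / 2 ^ n) ∧
    (∃ f : (Fin 9 → Bool) → ℝ, (∀ x, f x = 1 ∨ f x = -1) ∧
      (∀ S : Finset (Fin 9), 5 < S.card →
        (∑ x : Fin 9 → Bool, f x * ∏ i ∈ S, (if x i then (1 : ℝ) else -1)) / 2 ^ 9 = 0) ∧
      ∑ i : Fin 9, (∑ x : Fin 9 → Bool, f x * (if x i then (1 : ℝ) else -1)) / 2 ^ 9 = 31 / 16) ∧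
    (∀ (n : ℕ) (f : (Fin n → Bool) → ℝ), (∀ x, f x = 1 ∨ f x = -1) →
      (∀ S : Finset (Fin n), 4 < S.card →
        (∑ x : Fin n → Bool, f x * ∏ i ∈ S, (if x i then (1 : ℝ) else -1)) / 2 ^ n = 0) →
      ∑ i : Fin n, (∑ x : Fin n → Bool, f x * (if x i then (1 : ℝ) else -1)) / 2 ^ n ≤ 7 / 4) ∧
    (∃ f : (Fin 7 → Bool) → ℝ, (∀ x, f x = 1 ∨ f x = -1) ∧
      (∀ S : Finset (Fin 7), 4 < S.card →
        (∑ x : Fin 7 → Bool, f x * ∏ i ∈ S, (if x i then (1 : ℝ) else -1)) / 2 ^ 7 = 0) ∧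
      ∑ i : Fin 7, (∑ x : Fin 7 → Bool, f x * (if x i then (1 : ℝ) else -1)) / 2 ^ 7 = 7 / 4) ∧
    (∀ (n d : ℕ) (f : (Fin n → Bool) → ℝ), (∀ x, f x = 1 ∨ f x = -1) →
      (∀ S : Finset (Fin n), d < S.card →
        (∑ x : Fin n → Bool, f x * ∏ i ∈ S, (if x i then (1 : ℝ) else -1)) / 2 ^ n = 0) →
      (2 ≤ d → ∑ i : Fin n, (∑ x : Fin n → Bool, f x * (if x i then (1 : ℝ) else -1)) / 2 ^ n
          ≤ 49 / 50 * d) ∧
      (100 ≤ d → ∑ i : Fin n, (∑ x : Fin n → Bool, f x * (if x i then (1 : ℝ) else -1)) / 2 ^ n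
          ≤ 47 / 50 * d)) := by
  have hsum : ∀ (n : ℕ) (f : (Fin n → Bool) → ℝ),
      ∑ i : Fin n, (∑ x : Fin n → Bool, f x * (if x i then (1 : ℝ) else -1)) / 2 ^ n
      = lev f := by
    intro n f
    unfold lev
    apply Finset.sum_congr rfl
    intro i _
    simp [fhat, sg]
  have hB : ∀ d : ℕ, (∑ y : Fin d → Bool, |∑ i, (if y i then (1 : ℝ) else -1)|) / 2 ^ d
      = bb d 0 := by
    intro d
    simp [bb, sg]
  have h4 : ∀ k : ℕ, (2 : ℝ) ^ (2 * k) = 4 ^ k := by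
    intro k
    rw [pow_mul]
    norm_num
  obtain ⟨g1, ⟨f7, hf7b, hf7d, hf7l⟩, g3⟩ := Vale.Agent.Results.P047.DegreeFour.result
  have A : ∀ k : ℕ, ∃ f : (Fin (7 + 2 * k) → Bool) → ℝ, (∀ x, f x = 1 ∨ f x = -1) ∧
      (∀ S : Finset (Fin (7 + 2 * k)), 4 + 2 * k < S.card →
        (∑ x : Fin (7 + 2 * k) → Bool, f x * ∏ i ∈ S, (if x i then (1 : ℝ) else -1))
          / 2 ^ (7 + 2 * k) = 0) ∧
      (∑ y : Fin (4 + 2 * k) → Bool, |∑ i, (if y i then (1 : ℝ) else -1)|) / 2 ^ (4 + 2 * k)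
          + 1 / 4 * ((Nat.choose (2 * k) k : ℝ) / 4 ^ k)
        ≤ ∑ i : Fin (7 + 2 * k),
          (∑ x : Fin (7 + 2 * k) → Bool, f x * (if x i then (1 : ℝ) else -1))
            / 2 ^ (7 + 2 * k) := by
    intro k
    have hl : lev f7 = 7 / 4 := by rw [← hsum]; exact hf7l
    obtain ⟨g, hgb, hgd, hgl⟩ := exceed 3 4 f7 hf7b (fun S hS => hf7d S hS) (1 / 4) (by norm_num)
      (by rw [bb_four, hl]; norm_num) k
    refine ⟨g, hgb, fun S hS => hgd S hS, ?_⟩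
    rw [hsum, hB, ← h4]
    exact hgl
  have B : ∀ k : ℕ, ∃ f : (Fin (9 + 2 * k) → Bool) → ℝ, (∀ x, f x = 1 ∨ f x = -1) ∧
      (∀ S : Finset (Fin (9 + 2 * k)), 5 + 2 * k < S.card →
        (∑ x : Fin (9 + 2 * k) → Bool, f x * ∏ i ∈ S, (if x i then (1 : ℝ) else -1))
          / 2 ^ (9 + 2 * k) = 0) ∧
      (∑ y : Fin (5 + 2 * k) → Bool, |∑ i, (if y i then (1 : ℝ) else -1)|) / 2 ^ (5 + 2 * k)
          + 1 / 16 * ((Nat.choose (2 * k) k : ℝ) / 4 ^ k)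
        ≤ ∑ i : Fin (9 + 2 * k),
          (∑ x : Fin (9 + 2 * k) → Bool, f x * (if x i then (1 : ℝ) else -1))
            / 2 ^ (9 + 2 * k) := by
    intro k
    obtain ⟨g, hgb, hgd, hgl⟩ := exceed 4 5 f9 f9_bool f9_deg (1 / 16) (by norm_num)
      (by rw [bb_five, f9_lev]; norm_num) k
    refine ⟨g, hgb, fun S hS => hgd S hS, ?_⟩
    rw [hsum, hB, ← h4]
    exact hgl
  have hpos : ∀ k : ℕ, (0 : ℝ) < (Nat.choose (2 * k) k : ℝ) / 4 ^ k := by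
    intro k
    have : 0 < Nat.choose (2 * k) k := Nat.choose_pos (by omega)
    positivity
  refine ⟨A, B, ?_, ⟨f9, f9_bool, fun S hS => f9_deg S hS, ?_⟩, g1, ⟨f7, hf7b, hf7d, hf7l⟩, g3⟩
  · intro d hd
    obtain ⟨k, hk⟩ : ∃ k, d = 4 + 2 * k ∨ d = 5 + 2 * k := ⟨(d - 4) / 2, by omega⟩
    rcases hk with rfl | rfl
    · obtain ⟨f, h1, h2, h3⟩ := A k
      refine ⟨_, f, h1, h2, lt_of_lt_of_le ?_ h3⟩
      have := hpos k
      linarith
    · obtain ⟨f, h1, h2, h3⟩ := B k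
      refine ⟨_, f, h1, h2, lt_of_lt_of_le ?_ h3⟩
      have := hpos k
      linarith
  · rw [hsum]
    exact f9_lev

end Vale.Agent.Results.P047.BothBounds
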