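import Mathlib
import Vale.Agent.P047.Final
import Vale.Agent.P047.Deg4
import Vale.Agent.P047.UnambBool
import Vale.Agent.Results.P047.DegreeFour

namespace Vale.Agent.Results.P047.Unambiguous

open Finset Vale.Agent.P047

/-- The cube `{-1,1}^n` is `Fin n → Bool` with `true ↦ 1`, `false ↦ -1`.  A subcube is given by two
disjoint sets `P`, `Q` of coordinates: the points with `x = true` on `P` and `x = false` on `Q`;
its codimension is `|P| + |Q|`.

* (1) If the set `f = -1` of a Boolean `f` is a disjoint union of subcubes of codimension `≤ d`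
  (an unambiguous DNF of width `d`), then `deg f ≤ d` and
  `|∑ i, \hat f({i})| ≤ 2 √((d+1)/e)`.
* (2) If the cube is partitioned into subcubes on each of which `f` is constant, then
  `(∑ i, \hat f({i}))² ≤` the average codimension, hence `≤ d` if all codimensions are `≤ d`.
* (3) `deg f ≤ 4` implies `∑ i, \hat f({i}) ≤ 7/4`, and (4) this is attained on 7 variables.
* (5) `deg f ≤ d` implies `∑ i, \hat f({i}) ≤ (49/50) d` for `d ≥ 2`, `≤ (47/50) d` for `d ≥ 100`. -/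
theorem result :
    (∀ (n d m : ℕ) (P Q : Fin m → Finset (Fin n)) (f : (Fin n → Bool) → ℝ),
      1 ≤ d → (∀ j, Disjoint (P j) (Q j)) → (∀ j, (P j).card + (Q j).card ≤ d) →
      (∀ x, f x = 1 ∨ f x = -1) →
      (∀ x, f x = -1 ↔ ∃ j, (∀ i ∈ P j, x i = true) ∧ (∀ i ∈ Q j, x i = false)) →
      (∀ (x : Fin n → Bool) (j k : Fin m),
        ((∀ i ∈ P j, x i = true) ∧ (∀ i ∈ Q j, x i = false)) →
        ((∀ i ∈ P k, x i = true) ∧ (∀ i ∈ Q k, x i = false)) → j = k) →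
      (∀ S : Finset (Fin n), d < S.card →
        (∑ x : Fin n → Bool, f x * ∏ i ∈ S, (if x i then (1 : ℝ) else -1)) / 2 ^ n = 0) ∧
      |∑ i : Fin n, (∑ x : Fin n → Bool, f x * (if x i then (1 : ℝ) else -1)) / 2 ^ n|
        ≤ 2 * Real.sqrt ((d + 1) / Real.exp 1)) ∧
    (∀ (n m : ℕ) (P Q : Fin m → Finset (Fin n)) (c : Fin m → ℝ) (f : (Fin n → Bool) → ℝ),
      (∀ j, Disjoint (P j) (Q j)) → (∀ j, c j = 1 ∨ c j = -1) →
      (∀ x : Fin n → Bool, ∃! j, (∀ i ∈ P j, x i = true) ∧ (∀ i ∈ Q j, x i = false)) →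
      (∀ (x : Fin n → Bool) (j : Fin m),
        ((∀ i ∈ P j, x i = true) ∧ (∀ i ∈ Q j, x i = false)) → f x = c j) →
      (∑ i : Fin n, (∑ x : Fin n → Bool, f x * (if x i then (1 : ℝ) else -1)) / 2 ^ n) ^ 2
          ≤ ∑ j, (((P j).card : ℝ) + (Q j).card) / 2 ^ ((P j).card + (Q j).card) ∧
      ∀ d : ℕ, (∀ j, (P j).card + (Q j).card ≤ d) →
        (∑ i : Fin n, (∑ x : Fin n → Bool, f x * (if x i then (1 : ℝ) else -1)) / 2 ^ n) ^ 2 ≤ d) ∧
    (∀ (n : ℕ) (f : (Fin n → Bool) → ℝ), (∀ x, f x = 1 ∨ f x = -1) →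
      (∀ S : Finset (Fin n), 4 < S.card →
        (∑ x : Fin n → Bool, f x * ∏ i ∈ S, (if x i then (1 : ℝ) else -1)) / 2 ^ n = 0) →
      ∑ i : Fin n, (∑ x : Fin n → Bool, f x * (if x i then (1 : ℝ) else -1)) / 2 ^ n ≤ 7 / 4) ∧
    (∃ f : (Fin 7 → Bool) → ℝ, (∀ x, f x = 1 ∨ f x = -1) ∧
      (∀ S : Finset (Fin 7), 4 < S.card →
        (∑ x : Fin 7 → Bool, f x * ∏ i ∈ S, (if x i then (1 : ℝ) else -1)) / 2 ^ 7 = 0) ∧
      ∑ i : Fin 7, (∑ x : Fin 7 → Bool, f x * (if x i then (1 : ℝ) else -1)) / 2 ^ 7 = 7 / 4) ∧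
    (∀ (n d : ℕ) (f : (Fin n → Bool) → ℝ), (∀ x, f x = 1 ∨ f x = -1) →
      (∀ S : Finset (Fin n), d < S.card →
        (∑ x : Fin n → Bool, f x * ∏ i ∈ S, (if x i then (1 : ℝ) else -1)) / 2 ^ n = 0) →
      (2 ≤ d → ∑ i : Fin n, (∑ x : Fin n → Bool, f x * (if x i then (1 : ℝ) else -1)) / 2 ^ n
          ≤ 49 / 50 * d) ∧
      (100 ≤ d → ∑ i : Fin n, (∑ x : Fin n → Bool, f x * (if x i then (1 : ℝ) else -1)) / 2 ^ n
          ≤ 47 / 50 * d)) := by
  have hsum : ∀ (n : ℕ) (f : (Fin n → Bool) → ℝ),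
      ∑ i : Fin n, (∑ x : Fin n → Bool, f x * (if x i then (1 : ℝ) else -1)) / 2 ^ n
      = ∑ i, fhat f {i} := by
    intro n f
    apply Finset.sum_congr rfl
    intro i _
    simp [fhat, sg]
  obtain ⟨h3, h4, h5⟩ := Vale.Agent.Results.P047.DegreeFour.result
  refine ⟨?_, ?_, h3, h4, h5⟩
  · intro n d m P Q f hd hPQ hw hf hiff huniq
    rw [hsum]
    obtain ⟨hdeg, hlev⟩ := unamb_bool d hd P Q f hPQ hw hf hiff huniq
    exact ⟨fun S hS => hdeg S hS, hlev⟩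
  · intro n m P Q c f hPQ hc hpart hconst
    rw [hsum]
    exact partition_bool P Q c f hPQ hc hpart hconst

end Vale.Agent.Results.P047.Unambiguous
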