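import Mathlib
import Vale.Agent.P047.Tensor
import Vale.Agent.P047.Conical
import Vale.Agent.P047.Sharp
import Vale.Agent.Results.P047.Unambiguous

namespace Vale.Agent.Results.P047.SelfImproving

open Finset Vale.Agent.P047

/-- The cube `{-1,1}^n` is `Fin n → Bool` with `true ↦ 1`, `false ↦ -1`; `f` is Boolean if it is
`±1`-valued; `deg f ≤ d` means that all Fourier coefficients of level `> d` vanish; a subcube
fixes `x = true` on `P` and `x = false` on `Q` (`P`, `Q` disjoint), its codimension is `|P| + |Q|`.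

* (1) composition: Boolean `f` (`deg ≤ d`, `n` variables) and balanced Boolean `g` (`deg ≤ e`,
  `m` variables) give a Boolean `h` on `n m` variables with `deg h ≤ d e`, `E h = E f` and
  level-one sum the product of the level-one sums.
* (2) self-improvement: if the level-one sum of every Boolean `F` with `deg F ≤ D` is at most
  `C D^a`, then it is at most `d^a` for balanced `f` with `deg f ≤ d`, and in general
  `∑ \hat f({i}) + |E f| ≤ (d+1)^a`.
* (3) the same for `C √D`: conclusions `√d` and `√(d+1)`.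
* (4) a nonnegative combination `h ≤ 1` of indicators of subcubes of codimension `≤ d` has
  `|∑ \hat h({i})| ≤ √((d+1)/e)`.
* (5) unambiguous DNFs of width `d`; (6) subcube partitions (average codimension);
* (7) subcube partitions of width `≤ d`: level-one sum `≤ B_d = E|X_1 + ... + X_d|`.
* (8), (9) `M(4) = 7/4`; (10) general constant-factor bound. -/
theorem result :
    (∀ (n m d e : ℕ) (f : (Fin n → Bool) → ℝ) (g : (Fin m → Bool) → ℝ),
      (∀ x, f x = 1 ∨ f x = -1) → (∀ x, g x = 1 ∨ g x = -1) →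
      (∀ S : Finset (Fin n), d < S.card →
        (∑ x : Fin n → Bool, f x * ∏ i ∈ S, (if x i then (1 : ℝ) else -1)) / 2 ^ n = 0) →
      (∀ S : Finset (Fin m), e < S.card →
        (∑ x : Fin m → Bool, g x * ∏ i ∈ S, (if x i then (1 : ℝ) else -1)) / 2 ^ m = 0) →
      (∑ x : Fin m → Bool, g x) / 2 ^ m = 0 →
      ∃ h : (Fin (n * m) → Bool) → ℝ, (∀ x, h x = 1 ∨ h x = -1) ∧
        (∀ S : Finset (Fin (n * m)), d * e < S.card →
          (∑ x : Fin (n * m) → Bool, h x * ∏ i ∈ S, (if x i then (1 : ℝ) else -1))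
            / 2 ^ (n * m) = 0) ∧
        (∑ x : Fin (n * m) → Bool, h x) / 2 ^ (n * m) = (∑ x : Fin n → Bool, f x) / 2 ^ n ∧
        ∑ i : Fin (n * m), (∑ x : Fin (n * m) → Bool, h x * (if x i then (1 : ℝ) else -1))
            / 2 ^ (n * m)
          = (∑ i : Fin n, (∑ x : Fin n → Bool, f x * (if x i then (1 : ℝ) else -1)) / 2 ^ n)
            * ∑ i : Fin m, (∑ x : Fin m → Bool, g x * (if x i then (1 : ℝ) else -1)) / 2 ^ m) ∧
    (∀ C a : ℝ,
      (∀ (n D : ℕ) (F : (Fin n → Bool) → ℝ), (∀ x, F x = 1 ∨ F x = -1) →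
        (∀ S : Finset (Fin n), D < S.card →
          (∑ x : Fin n → Bool, F x * ∏ i ∈ S, (if x i then (1 : ℝ) else -1)) / 2 ^ n = 0) →
        ∑ i : Fin n, (∑ x : Fin n → Bool, F x * (if x i then (1 : ℝ) else -1)) / 2 ^ n
          ≤ C * (D : ℝ) ^ a) →
      ∀ (n d : ℕ) (f : (Fin n → Bool) → ℝ), (∀ x, f x = 1 ∨ f x = -1) →
        (∀ S : Finset (Fin n), d < S.card →
          (∑ x : Fin n → Bool, f x * ∏ i ∈ S, (if x i then (1 : ℝ) else -1)) / 2 ^ n = 0) →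
        ((∑ x : Fin n → Bool, f x) / 2 ^ n = 0 →
          ∑ i : Fin n, (∑ x : Fin n → Bool, f x * (if x i then (1 : ℝ) else -1)) / 2 ^ n
            ≤ (d : ℝ) ^ a) ∧
        ∑ i : Fin n, (∑ x : Fin n → Bool, f x * (if x i then (1 : ℝ) else -1)) / 2 ^ n
          + |(∑ x : Fin n → Bool, f x) / 2 ^ n| ≤ ((d : ℝ) + 1) ^ a) ∧
    (∀ C : ℝ,
      (∀ (n D : ℕ) (F : (Fin n → Bool) → ℝ), (∀ x, F x = 1 ∨ F x = -1) →
        (∀ S : Finset (Fin n), D < S.card →
          (∑ x : Fin n → Bool, F x * ∏ i ∈ S, (if x i then (1 : ℝ) else -1)) / 2 ^ n = 0) →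
        ∑ i : Fin n, (∑ x : Fin n → Bool, F x * (if x i then (1 : ℝ) else -1)) / 2 ^ n
          ≤ C * Real.sqrt D) →
      ∀ (n d : ℕ) (f : (Fin n → Bool) → ℝ), (∀ x, f x = 1 ∨ f x = -1) →
        (∀ S : Finset (Fin n), d < S.card →
          (∑ x : Fin n → Bool, f x * ∏ i ∈ S, (if x i then (1 : ℝ) else -1)) / 2 ^ n = 0) →
        ((∑ x : Fin n → Bool, f x) / 2 ^ n = 0 →
          ∑ i : Fin n, (∑ x : Fin n → Bool, f x * (if x i then (1 : ℝ) else -1)) / 2 ^ n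
            ≤ Real.sqrt d) ∧
        ∑ i : Fin n, (∑ x : Fin n → Bool, f x * (if x i then (1 : ℝ) else -1)) / 2 ^ n
          + |(∑ x : Fin n → Bool, f x) / 2 ^ n| ≤ Real.sqrt ((d : ℝ) + 1)) ∧
    (∀ (n d m : ℕ) (P Q : Fin m → Finset (Fin n)) (c : Fin m → ℝ) (h : (Fin n → Bool) → ℝ),
      1 ≤ d → (∀ j, Disjoint (P j) (Q j)) → (∀ j, (P j).card + (Q j).card ≤ d) →
      (∀ j, 0 ≤ c j) →
      (∀ x, h x = ∑ j, c j *
        (if (∀ i ∈ P j, x i = true) ∧ (∀ i ∈ Q j, x i = false) then (1 : ℝ) else 0)) →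
      (∀ x, h x ≤ 1) →
      |∑ i : Fin n, (∑ x : Fin n → Bool, h x * (if x i then (1 : ℝ) else -1)) / 2 ^ n|
        ≤ Real.sqrt ((d + 1) / Real.exp 1)) ∧
    (∀ (n d m : ℕ) (P Q : Fin m → Finset (Fin n)) (f : (Fin n → Bool) → ℝ),
      1 ≤ d → (∀ j, Disjoint (P j) (Q j)) → (∀ j, (P j).card + (Q j).card ≤ d) →
      (∀ x, f x = 1 ∨ f x = -1) →
      (∀ x, f x = -1 ↔ ∃ j, (∀ i ∈ P j, x i = true) ∧ (∀ i ∈ Q j, x i = false)) →
      (∀ (x : Fin n → Bool) (j k : Fin m),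
        ((∀ i ∈ P j, x i = true) ∧ (∀ i ∈ Q j, x i = false)) →
        ((∀ i ∈ P k, x i = true) ∧ (∀ i ∈ Q k, x i = false)) → j = k) →
      (∀ S : Finset (Fin n), d < S.card →
        (∑ x : Fin n → Bool, f x * ∏ i ∈ S, (if x i then (1 : ℝ) else -1)) / 2 ^ n = 0) ∧
      |∑ i : Fin n, (∑ x : Fin n → Bool, f x * (if x i then (1 : ℝ) else -1)) / 2 ^ n|
        ≤ 2 * Real.sqrt ((d + 1) / Real.exp 1)) ∧
    (∀ (n m : ℕ) (P Q : Fin m → Finset (Fin n)) (c : Fin m → ℝ) (f : (Fin n → Bool) → ℝ),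
      (∀ j, Disjoint (P j) (Q j)) → (∀ j, c j = 1 ∨ c j = -1) →
      (∀ x : Fin n → Bool, ∃! j, (∀ i ∈ P j, x i = true) ∧ (∀ i ∈ Q j, x i = false)) →
      (∀ (x : Fin n → Bool) (j : Fin m),
        ((∀ i ∈ P j, x i = true) ∧ (∀ i ∈ Q j, x i = false)) → f x = c j) →
      (∑ i : Fin n, (∑ x : Fin n → Bool, f x * (if x i then (1 : ℝ) else -1)) / 2 ^ n) ^ 2
          ≤ ∑ j, (((P j).card : ℝ) + (Q j).card) / 2 ^ ((P j).card + (Q j).card) ∧
      ∀ d : ℕ, (∀ j, (P j).card + (Q j).card ≤ d) →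
        (∑ i : Fin n, (∑ x : Fin n → Bool, f x * (if x i then (1 : ℝ) else -1)) / 2 ^ n) ^ 2 ≤ d ∧
        ∑ i : Fin n, (∑ x : Fin n → Bool, f x * (if x i then (1 : ℝ) else -1)) / 2 ^ n
          ≤ (∑ y : Fin d → Bool, |∑ i, (if y i then (1 : ℝ) else -1)|) / 2 ^ d) ∧
    (∀ (n : ℕ) (f : (Fin n → Bool) → ℝ), (∀ x, f x = 1 ∨ f x = -1) →
      (∀ S : Finset (Fin n), 4 < S.card →
        (∑ x : Fin n → Bool, f x * ∏ i ∈ S, (if x i then (1 : ℝ) else -1)) / 2 ^ n = 0) →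
      ∑ i : Fin n, (∑ x : Fin n → Bool, f x * (if x i then (1 : ℝ) else -1)) / 2 ^ n ≤ 7 / 4) ∧
    (∃ f : (Fin 7 → Bool) → ℝ, (∀ x, f x = 1 ∨ f x = -1) ∧
      (∀ S : Finset (Fin 7), 4 < S.card →
        (∑ x : Fin 7 → Bool, f x * ∏ i ∈ S, (if x i then (1 : ℝ) else -1)) / 2 ^ 7 = 0) ∧
      ∑ i : Fin 7, (∑ x : Fin 7 → Bool, f x * (if x i then (1 : ℝ) else -1)) / 2 ^ 7 = 7 / 4) ∧
    (∀ (n d : ℕ) (f : (Fin n → Bool) → ℝ), (∀ x, f x = 1 ∨ f x = -1) →
      (∀ S : Finset (Fin n), d < S.card →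
        (∑ x : Fin n → Bool, f x * ∏ i ∈ S, (if x i then (1 : ℝ) else -1)) / 2 ^ n = 0) →
      (2 ≤ d → ∑ i : Fin n, (∑ x : Fin n → Bool, f x * (if x i then (1 : ℝ) else -1)) / 2 ^ n
          ≤ 49 / 50 * d) ∧
      (100 ≤ d → ∑ i : Fin n, (∑ x : Fin n → Bool, f x * (if x i then (1 : ℝ) else -1)) / 2 ^ n
          ≤ 47 / 50 * d)) := by
  have hsum : ∀ (n : ℕ) (f : (Fin n → Bool) → ℝ),
      ∑ i : Fin n, (∑ x : Fin n → Bool, f x * (if x i then (1 : ℝ) else -1)) / 2 ^ n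
      = ∑ i, fhat f {i} := by
    intro n f
    apply Finset.sum_congr rfl
    intro i _
    simp [fhat, Vale.Agent.P047.sg]
  obtain ⟨h1, h2, h3, h4, h5⟩ := Vale.Agent.Results.P047.Unambiguous.result
  refine ⟨?_, ?_, ?_, ?_, h1, ?_, h3, h4, h5⟩
  · intro n m d e f g hf hg hdf hdg hbal
    exact Comp.compose_real d e f g hf hg hdf hdg hbal
  · intro C a H n d f hf hdeg
    have hd' : ∀ S : Finset (Fin n), d < S.card → Comp.gh (Comp.toB f) S = 0 := by
      intro S hS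
      rw [Comp.gh_toB f hf]
      exact hdeg S hS
    have he : Comp.gh (Comp.toB f) ∅ = (∑ x : Fin n → Bool, f x) / 2 ^ n := by
      rw [Comp.gh_toB f hf]
      simp
    rw [← Comp.lv_toB f hf, ← he]
    refine ⟨fun hb => Comp.bal_boundPow C a H _ hb d hd', ?_⟩
    have := Comp.gen_boundPow C a H (Comp.toB f) d hd'
    push_cast at this
    exact this
  · intro C H n d f hf hdeg
    have hd' : ∀ S : Finset (Fin n), d < S.card → Comp.gh (Comp.toB f) S = 0 := by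
      intro S hS
      rw [Comp.gh_toB f hf]
      exact hdeg S hS
    have he : Comp.gh (Comp.toB f) ∅ = (∑ x : Fin n → Bool, f x) / 2 ^ n := by
      rw [Comp.gh_toB f hf]
      simp
    rw [← Comp.lv_toB f hf, ← he]
    refine ⟨fun hb => Comp.bal_bound C H _ hb d hd', ?_⟩
    have := Comp.gen_bound C H (Comp.toB f) d hd'
    push_cast at this
    exact this
  · intro n d m P Q c h hd hPQ hw hc hh hle
    rw [hsum]
    exact lev_conical d hd c hc P Q hPQ hw h hh hle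
  · intro n m P Q c f hPQ hc hpart hconst
    obtain ⟨ha, hb⟩ := h2 n m P Q c f hPQ hc hpart hconst
    refine ⟨ha, fun d hd => ⟨hb d hd, ?_⟩⟩
    rw [hsum]
    exact partition_sharp_bool d P Q c f hPQ hd hc hpart hconst

end Vale.Agent.Results.P047.SelfImproving
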