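import Mathlib
import Vale.Agent.P047.Weighted
import Vale.Agent.Results.P047.SelfImproving
import Vale.Agent.Results.P047.BothBounds

namespace Vale.Agent.Results.P047.ConicalDegree

open Finset Vale.Agent.P047

/-- The cube `{-1,1}^n` is `Fin n → Bool` with `true ↦ 1`, `false ↦ -1`; `deg f ≤ d` means that all
Fourier coefficients of level `> d` vanish; a subcube fixes `x = true` on `P` and `x = false` on
`Q`, its codimension is `|P| + |Q|`; `B_d = E|X_1 + ... + X_d|`.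

* (1) weighted subcube partitions: if `∑ w_j 1_{C_j} = 1` with `w_j ≥ 0` and codimensions `≤ d`, and
  `f = ∑ w_j c_j 1_{C_j}` with `|c_j| ≤ 1`, then `deg f ≤ d` and the level-one sum is at most `B_d`
  and at most `√d`;
* (2) for every `d ≥ 4` some Boolean `f` with `deg f ≤ d` has level-one sum `> B_d`;
* (3) one-sided conical juntas; (4) unambiguous DNFs;
* (5), (6) self-improvement of a weak bound; (7), (8) `M(4) = 7/4`; (9) general upper bound. -/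
theorem result :
    (∀ (n d m : ℕ) (P Q : Fin m → Finset (Fin n)) (w c : Fin m → ℝ) (f : (Fin n → Bool) → ℝ),
      (∀ j, Disjoint (P j) (Q j)) → (∀ j, (P j).card + (Q j).card ≤ d) →
      (∀ j, 0 ≤ w j) → (∀ j, |c j| ≤ 1) →
      (∀ x : Fin n → Bool, ∑ j, w j *
        (if (∀ i ∈ P j, x i = true) ∧ (∀ i ∈ Q j, x i = false) then (1 : ℝ) else 0) = 1) →
      (∀ x, f x = ∑ j, w j * c j *
        (if (∀ i ∈ P j, x i = true) ∧ (∀ i ∈ Q j, x i = false) then (1 : ℝ) else 0)) →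
      (∀ S : Finset (Fin n), d < S.card →
        (∑ x : Fin n → Bool, f x * ∏ i ∈ S, (if x i then (1 : ℝ) else -1)) / 2 ^ n = 0) ∧
      ∑ i : Fin n, (∑ x : Fin n → Bool, f x * (if x i then (1 : ℝ) else -1)) / 2 ^ n
        ≤ (∑ y : Fin d → Bool, |∑ i, (if y i then (1 : ℝ) else -1)|) / 2 ^ d ∧
      ∑ i : Fin n, (∑ x : Fin n → Bool, f x * (if x i then (1 : ℝ) else -1)) / 2 ^ n
        ≤ Real.sqrt d) ∧
    (∀ d : ℕ, 4 ≤ d → ∃ (n : ℕ) (f : (Fin n → Bool) → ℝ), (∀ x, f x = 1 ∨ f x = -1) ∧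
      (∀ S : Finset (Fin n), d < S.card →
        (∑ x : Fin n → Bool, f x * ∏ i ∈ S, (if x i then (1 : ℝ) else -1)) / 2 ^ n = 0) ∧
      (∑ y : Fin d → Bool, |∑ i, (if y i then (1 : ℝ) else -1)|) / 2 ^ d
        < ∑ i : Fin n, (∑ x : Fin n → Bool, f x * (if x i then (1 : ℝ) else -1)) / 2 ^ n) ∧
    (∀ (n d m : ℕ) (P Q : Fin m → Finset (Fin n)) (c : Fin m → ℝ) (h : (Fin n → Bool) → ℝ),
      1 ≤ d → (∀ j, Disjoint (P j) (Q j)) → (∀ j, (P j).card + (Q j).card ≤ d) →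
      (∀ j, 0 ≤ c j) →
      (∀ x, h x = ∑ j, c j *
        (if (∀ i ∈ P j, x i = true) ∧ (∀ i ∈ Q j, x i = false) then (1 : ℝ) else 0)) →
      (∀ x, h x ≤ 1) →
      |∑ i : Fin n, (∑ x : Fin n → Bool, h x * (if x i then (1 : ℝ) else -1)) / 2 ^ n|
        ≤ Real.sqrt ((d + 1) / Real.exp 1)) ∧
    (∀ (n d m : ℕ) (P Q : Fin m → Finset (Fin n)) (f : (Fin n → Bool) → ℝ),
      1 ≤ d → (∀ j, Disjoint (P j) (Q j)) → (∀ j, (P j).card + (Q j).card ≤ d) →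
      (∀ x, f x = 1 ∨ f x = -1) →
      (∀ x, f x = -1 ↔ ∃ j, (∀ i ∈ P j, x i = true) ∧ (∀ i ∈ Q j, x i = false)) →
      (∀ (x : Fin n → Bool) (j k : Fin m),
        ((∀ i ∈ P j, x i = true) ∧ (∀ i ∈ Q j, x i = false)) →
        ((∀ i ∈ P k, x i = true) ∧ (∀ i ∈ Q k, x i = false)) → j = k) →
      (∀ S : Finset (Fin n), d < S.card →
        (∑ x : Fin n → Bool, f x * ∏ i ∈ S, (if x i then (1 : ℝ) else -1)) / 2 ^ n = 0) ∧
      |∑ i : Fin n, (∑ x : Fin n → Bool, f x * (if x i then (1 : ℝ) else -1)) / 2 ^ n|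
        ≤ 2 * Real.sqrt ((d + 1) / Real.exp 1)) ∧
    (∀ C a : ℝ,
      (∀ (n D : ℕ) (F : (Fin n → Bool) → ℝ), (∀ x, F x = 1 ∨ F x = -1) →
        (∀ S : Finset (Fin n), D < S.card →
          (∑ x : Fin n → Bool, F x * ∏ i ∈ S, (if x i then (1 : ℝ) else -1)) / 2 ^ n = 0) →
        ∑ i : Fin n, (∑ x : Fin n → Bool, F x * (if x i then (1 : ℝ) else -1)) / 2 ^ n
          ≤ C * (D : ℝ) ^ a) →
      ∀ (n d : ℕ) (f : (Fin n → Bool) → ℝ), (∀ x, f x = 1 ∨ f x = -1) →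
        (∀ S : Finset (Fin n), d < S.card →
          (∑ x : Fin n → Bool, f x * ∏ i ∈ S, (if x i then (1 : ℝ) else -1)) / 2 ^ n = 0) →
        ((∑ x : Fin n → Bool, f x) / 2 ^ n = 0 →
          ∑ i : Fin n, (∑ x : Fin n → Bool, f x * (if x i then (1 : ℝ) else -1)) / 2 ^ n
            ≤ (d : ℝ) ^ a) ∧
        ∑ i : Fin n, (∑ x : Fin n → Bool, f x * (if x i then (1 : ℝ) else -1)) / 2 ^ n
          + |(∑ x : Fin n → Bool, f x) / 2 ^ n| ≤ ((d : ℝ) + 1) ^ a) ∧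
    (∀ C : ℝ,
      (∀ (n D : ℕ) (F : (Fin n → Bool) → ℝ), (∀ x, F x = 1 ∨ F x = -1) →
        (∀ S : Finset (Fin n), D < S.card →
          (∑ x : Fin n → Bool, F x * ∏ i ∈ S, (if x i then (1 : ℝ) else -1)) / 2 ^ n = 0) →
        ∑ i : Fin n, (∑ x : Fin n → Bool, F x * (if x i then (1 : ℝ) else -1)) / 2 ^ n
          ≤ C * Real.sqrt D) →
      ∀ (n d : ℕ) (f : (Fin n → Bool) → ℝ), (∀ x, f x = 1 ∨ f x = -1) →
        (∀ S : Finset (Fin n), d < S.card →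
          (∑ x : Fin n → Bool, f x * ∏ i ∈ S, (if x i then (1 : ℝ) else -1)) / 2 ^ n = 0) →
        ((∑ x : Fin n → Bool, f x) / 2 ^ n = 0 →
          ∑ i : Fin n, (∑ x : Fin n → Bool, f x * (if x i then (1 : ℝ) else -1)) / 2 ^ n
            ≤ Real.sqrt d) ∧
        ∑ i : Fin n, (∑ x : Fin n → Bool, f x * (if x i then (1 : ℝ) else -1)) / 2 ^ n
          + |(∑ x : Fin n → Bool, f x) / 2 ^ n| ≤ Real.sqrt ((d : ℝ) + 1)) ∧
    (∀ (n : ℕ) (f : (Fin n → Bool) → ℝ), (∀ x, f x = 1 ∨ f x = -1) →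
      (∀ S : Finset (Fin n), 4 < S.card →
        (∑ x : Fin n → Bool, f x * ∏ i ∈ S, (if x i then (1 : ℝ) else -1)) / 2 ^ n = 0) →
      ∑ i : Fin n, (∑ x : Fin n → Bool, f x * (if x i then (1 : ℝ) else -1)) / 2 ^ n ≤ 7 / 4) ∧
    (∃ f : (Fin 7 → Bool) → ℝ, (∀ x, f x = 1 ∨ f x = -1) ∧
      (∀ S : Finset (Fin 7), 4 < S.card →
        (∑ x : Fin 7 → Bool, f x * ∏ i ∈ S, (if x i then (1 : ℝ) else -1)) / 2 ^ 7 = 0) ∧
      ∑ i : Fin 7, (∑ x : Fin 7 → Bool, f x * (if x i then (1 : ℝ) else -1)) / 2 ^ 7 = 7 / 4) ∧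
    (∀ (n d : ℕ) (f : (Fin n → Bool) → ℝ), (∀ x, f x = 1 ∨ f x = -1) →
      (∀ S : Finset (Fin n), d < S.card →
        (∑ x : Fin n → Bool, f x * ∏ i ∈ S, (if x i then (1 : ℝ) else -1)) / 2 ^ n = 0) →
      (2 ≤ d → ∑ i : Fin n, (∑ x : Fin n → Bool, f x * (if x i then (1 : ℝ) else -1)) / 2 ^ n
          ≤ 49 / 50 * d) ∧
      (100 ≤ d → ∑ i : Fin n, (∑ x : Fin n → Bool, f x * (if x i then (1 : ℝ) else -1)) / 2 ^ n
          ≤ 47 / 50 * d)) := by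
  obtain ⟨_, s2, s3, s4, s5, _, s7, s8, s9⟩ := Vale.Agent.Results.P047.SelfImproving.result
  obtain ⟨_, _, b3, _⟩ := Vale.Agent.Results.P047.BothBounds.result
  refine ⟨?_, b3, s4, s5, s2, s3, s7, s8, s9⟩
  intro n d m P Q w c f hPQ hw hw0 hc hpart hf
  have hsum : ∑ i : Fin n, (∑ x : Fin n → Bool, f x * (if x i then (1 : ℝ) else -1)) / 2 ^ n
      = ∑ i, fhat f {i} := by
    apply Finset.sum_congr rfl
    intro i _
    simp [fhat, Vale.Agent.P047.sg]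
  obtain ⟨h1, h2⟩ := wpartition_main d w c P Q f hw0 hc hPQ hw hpart hf
  rw [hsum]
  exact ⟨fun S hS => h1 S hS, h2, le_trans h2 (B_le_sqrt d)⟩

end Vale.Agent.Results.P047.ConicalDegree
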